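import Vale.Agent.Lib.P093.Gap

/-!
P093 (Phillips-Toms conjecture). A failure of the lower bound on a system with arbitrarily
high clopen towers is amplified without bound.
-/

namespace Vale.Agent.Results.P093.GapAmplification

open Vale.Agent.Lib.P093
open scoped ENNReal

/-- Let `h` be a minimal homeomorphism of an infinite compact metrizable space `X` having
clopen towers of arbitrarily large height. If `rc (C(X) ⋊_h ℤ) < mdim (X, h) / 2`, then for
every finite `c` there is a clopen tower whose base system `(U, g)`, `g = h^n` on `U`, is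
again a minimal homeomorphism of an infinite compact metrizable space and satisfies
`rc (C(U) ⋊_g ℤ) + c < mdim (U, g) / 2`. -/
theorem result {X : Type} [TopologicalSpace X] [CompactSpace X]
    [TopologicalSpace.MetrizableSpace X] [Infinite X] (h : X ≃ₜ X) (hmin : IsMinimalHomeo h)
    (htow : ∀ N : ℕ, ∃ n, N ≤ n ∧ ∃ (U : Set X) (g : U ≃ₜ U), IsTower h n U g)
    (hlt : rc (CrossedProduct h) < mdim h / 2) (c : ℝ≥0∞) (hc : c ≠ ⊤) :
    ∃ (n : ℕ) (U : Set X) (g : U ≃ₜ U), IsTower h n U g ∧ CompactSpace U ∧
      TopologicalSpace.MetrizableSpace U ∧ Infinite U ∧ IsMinimalHomeo g ∧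
      rc (CrossedProduct g) + c < mdim g / 2 := by
  obtain ⟨n, U, g, ht, h1, h2, h3, h4⟩ := gap_amplification h hmin htow hlt c hc
  exact ⟨n, U, g, ht, h1, inferInstance, h2, h3, h4⟩

end Vale.Agent.Results.P093.GapAmplification
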