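import Vale.Agent.Lib.P093.SmallMdim

/-!
P093 (Phillips-Toms conjecture). Reduction to systems of small mean dimension with a tower.
-/

namespace Vale.Agent.Results.P093.SmallMdimReduction

open Vale.Agent.Lib.P093
open scoped ENNReal

/-- Let `ε > 0` and `N` be given. Suppose `mdim (X, h) / 2 ≤ rc (C(X) ⋊_h ℤ)` for every
minimal homeomorphism `h` of an infinite compact metrizable space `X` with
`mdim (X, h) ≤ ε` which has a clopen tower of height at least `N`. Then
`mdim (Y, g) / 2 ≤ rc (C(Y) ⋊_g ℤ)` for every minimal homeomorphism `g` of an infinite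
compact metrizable space `Y` of finite mean dimension. -/
theorem result (ε : ℝ≥0∞) (hε : ε ≠ 0) (N : ℕ)
    (H : ∀ (X : Type) [TopologicalSpace X] [CompactSpace X] [TopologicalSpace.MetrizableSpace X]
      [Infinite X] (h : X ≃ₜ X), IsMinimalHomeo h → mdim h ≤ ε →
      (∃ n, N ≤ n ∧ ∃ (U : Set X) (g : U ≃ₜ U), IsTower h n U g) →
      mdim h / 2 ≤ rc (CrossedProduct h))
    (Y : Type) [TopologicalSpace Y] [CompactSpace Y] [TopologicalSpace.MetrizableSpace Y]
    [Infinite Y] (g : Y ≃ₜ Y) (hg : IsMinimalHomeo g) (hfin : mdim g ≠ ⊤) :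
    mdim g / 2 ≤ rc (CrossedProduct g) :=
  small_mdim_reduction ε hε N H Y g hg hfin

end Vale.Agent.Results.P093.SmallMdimReduction
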