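import Vale.Agent.Lib.P093.Main

/-!
P093 (Phillips-Toms conjecture). Amplification along clopen towers.
-/

namespace Vale.Agent.Results.P093.TowerAmplification

open Vale.Agent.Lib.P093
open scoped ENNReal

/-- Let `h` be a homeomorphism of a compact space `X` and `c < ∞`. Suppose that for every `N`
there are `n ≥ N` and a clopen tower of height `n` for `h` whose base system `(U, g)`,
`g = h^n` on `U`, satisfies `mdim (U, g) / 2 ≤ rc (C(U) ⋊_g ℤ) + c`.
Then `mdim (X, h) / 2 ≤ rc (C(X) ⋊_h ℤ)`. -/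
theorem result {X : Type} [TopologicalSpace X] [CompactSpace X] (h : X ≃ₜ X) (c : ℝ≥0∞)
    (hc : c ≠ ⊤)
    (H : ∀ N : ℕ, ∃ n, N ≤ n ∧ ∃ (U : Set X) (g : U ≃ₜ U), IsTower h n U g ∧
      mdim g / 2 ≤ rc (CrossedProduct g) + c) :
    mdim h / 2 ≤ rc (CrossedProduct h) := by
  simp only [rc_CrossedProduct] at H ⊢
  exact tower_amplification h c hc H

end Vale.Agent.Results.P093.TowerAmplification
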