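import Vale.Agent.Lib.P093.Scaling

/-!
P093 (Phillips-Toms conjecture). Exact scaling along clopen towers.
-/

namespace Vale.Agent.Results.P093.TowerScaling

open Vale.Agent.Lib.P093
open scoped ENNReal

/-- Let `h` be a homeomorphism of a compact space `X`, and let `U` be the base of a clopen
tower of height `n` with return map `g = h^n` on `U`. Then
`rc (C(U) ⋊_g ℤ) = n * rc (C(X) ⋊_h ℤ)` and `mdim (U, g) = n * mdim (X, h)`; hence the
inequality `mdim / 2 ≤ rc` and the equality `rc = mdim / 2` hold for `(U, g)` if and only if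
they hold for `(X, h)`. Moreover `g` is minimal when `h` is. -/
theorem result {X : Type} [TopologicalSpace X] [CompactSpace X] (h : X ≃ₜ X) (n : ℕ)
    (U : Set X) (g : U ≃ₜ U) (ht : IsTower h n U g) :
    rc (CrossedProduct g) = (n : ℝ≥0∞) * rc (CrossedProduct h) ∧
      mdim g = (n : ℝ≥0∞) * mdim h ∧
      (mdim g / 2 ≤ rc (CrossedProduct g) ↔ mdim h / 2 ≤ rc (CrossedProduct h)) ∧
      (rc (CrossedProduct g) = mdim g / 2 ↔ rc (CrossedProduct h) = mdim h / 2) ∧
      (IsMinimalHomeo h → IsMinimalHomeo g) :=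
  tower_scaling ht

end Vale.Agent.Results.P093.TowerScaling
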